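import Vale.Agent.N358.Main

/-! P358, the generalized amplitude-damping channel: additivity holds for every prescribed average
input; the convex roof of the output entropy and the entanglement of formation on the dilations of
the channel are strongly superadditive. -/

namespace Vale.Agent.Results.P358.A0Roof

open Matrix Vale.Agent.P358 Vale.Agent.N358
open scoped Kronecker

theorem result (γ ν : ℝ) (hγ : γ ∈ Set.Icc (0 : ℝ) 1) (hν : ν ∈ Set.Icc (0 : ℝ) 1) (g : ℝ → ℝ)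
    (hg : ∀ q, g q =
      h2 ((1 + √((1 - 2 * ((1 - γ) * q + γ * ν)) ^ 2 + 4 * (1 - γ) * (q * (1 - q)))) / 2)) :
    -- (1) prescribed average input, convex roof of the output entropy
    ((∀ ρ, IsState ρ → roof (gadc γ ν) ρ = g (ρ 1 1).re) ∧
      ∀ (ι κ : Type) [Fintype ι] [DecidableEq ι] [Fintype κ] [DecidableEq κ]
        (Ψ : Matrix ι ι ℂ →ₗ[ℂ] Matrix κ κ ℂ), IsChannel Ψ →
        (∀ τ, IsState τ → chiAt Ψ τ = entropy (Ψ τ) - roof Ψ τ) ∧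
        (∀ σ, IsState σ →
          roof (gadc γ ν) (fst σ) + roof Ψ (snd σ) ≤ roof (tensorMap (gadc γ ν) Ψ) σ ∧
          chiAt (tensorMap (gadc γ ν) Ψ) σ ≤ chiAt (gadc γ ν) (fst σ) + chiAt Ψ (snd σ)) ∧
        ∀ ρ τ, IsState ρ → IsState τ →
          roof (tensorMap (gadc γ ν) Ψ) (ρ ⊗ₖ τ) = roof (gadc γ ν) ρ + roof Ψ τ ∧
          chiAt (tensorMap (gadc γ ν) Ψ) (ρ ⊗ₖ τ) = chiAt (gadc γ ν) ρ + chiAt Ψ τ) ∧
    -- (2) entanglement of formation on the range of a dilation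
    (∀ (ε : Type) [Fintype ε] [DecidableEq ε] (V : Matrix (Fin 2 × ε) (Fin 2) ℂ),
      (∀ X, fst (V * X * Vᴴ) = gadc γ ν X) → ∀ ρ, IsState ρ →
        eof (V * ρ * Vᴴ) = g (ρ 1 1).re ∧
        (∀ n : ℕ, eof (copies n (V * ρ * Vᴴ)) = n * g (ρ 1 1).re) ∧
        ∀ (α β : Type) [Fintype α] [DecidableEq α] [Fintype β] [DecidableEq β],
          (∀ τ : Matrix (α × β) (α × β) ℂ, IsState τ →
            eof (regroup ((V * ρ * Vᴴ) ⊗ₖ τ)) = eof (V * ρ * Vᴴ) + eof τ) ∧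
          ∀ ω : Matrix ((Fin 2 × ε) × (α × β)) ((Fin 2 × ε) × (α × β)) ℂ, IsState ω →
            fst ω = V * ρ * Vᴴ → eof (fst ω) + eof (snd ω) ≤ eof (regroup ω)) ∧
    -- (3) dilations exist
    (∃ V : Matrix (Fin 2 × Fin 4) (Fin 2) ℂ, ∀ X, fst (V * X * Vᴴ) = gadc γ ν X) ∧
    ∀ V : Matrix (Fin 2 × Fin 2) (Fin 2) ℂ, Vᵀ 0 = Pi.single (0, 0) 1 →
      Vᵀ 1 = Pi.single (1, 0) (√(1 - γ) : ℂ) + Pi.single (0, 1) (√γ : ℂ) →
      ∀ X, fst (V * X * Vᴴ) = gadc γ 0 X :=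
  have h := (main γ ν hγ hν g hg).2
  ⟨h.1, h.2.1, h.2.2.2⟩

end Vale.Agent.Results.P358.A0Roof
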